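import Mathlib

/-!
# P179: splitting `p`-modular systems exist
-/

set_option linter.all false

open scoped MonoidAlgebra
open IsLocalRing Polynomial

namespace Vale.Agent.P179M21

universe u

/-- `1` is a sum of elements `e` of `F[H]` with `e F[H] e ⊆ F e` -/
def Rk (F H : Type*) [Field F] [Group H] : Prop :=
  ∃ (ι : Type) (_ : Fintype ι) (e : ι → F[H]), ∑ j, e j = 1 ∧
    ∀ j x, ∃ c : F, e j * x * e j = c • e j

theorem rk_closed (E H : Type*) [Field E] [IsAlgClosed E] [CharZero E] [Group H] [Finite H] :
    Rk E H := by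
  haveI : NeZero (Nat.card H : E) := ⟨Nat.cast_ne_zero.2 Nat.card_pos.ne'⟩
  obtain ⟨n, d, -, ⟨φ⟩⟩ := IsSemisimpleRing.exists_algEquiv_pi_matrix_of_isAlgClosed E E[H]
  refine ⟨Σ i, Fin (d i), inferInstance,
    fun j => φ.symm (Pi.single j.1 (Matrix.single j.2 j.2 1)), ?_,
    fun j x => ⟨φ x j.1 j.2 j.2, φ.injective ?_⟩⟩
  · rw [← map_sum, ← map_one φ.symm, Fintype.sum_sigma]
    congr 1
    rw [← Finset.univ_sum_single (1 : Π i, Matrix (Fin (d i)) (Fin (d i)) E)]
    refine Finset.sum_congr rfl fun i _ => ?_
    have := map_sum (AddMonoidHom.single (fun i => Matrix (Fin (d i)) (Fin (d i)) E) i)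
      (fun a => Matrix.single a a (1 : E)) Finset.univ
    rw [Matrix.sum_single_one] at this
    exact this.symm
  · simp only [map_mul, map_smul, AlgEquiv.apply_symm_apply]
    funext i
    by_cases h : i = j.1
    · subst h
      simp [Matrix.single_mul_mul_single]
    · simp [Pi.single_eq_of_ne h]

theorem rk_desc (K : Type*) {E H : Type*} [Field K] [Field E] [Algebra K E] [Group H] [Finite H]
    (h : Rk E H) : ∃ s : Set E, s.Finite ∧ ∀ L : IntermediateField K E, s ⊆ L → Rk L H := by
  obtain ⟨ι, _, e, h1, h2⟩ := h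
  refine ⟨Set.range fun p : ι × H => (e p.1).coeff p.2, Set.finite_range _, fun L hL => ?_⟩
  let f := MonoidAlgebra.mapRingHom H (algebraMap L E)
  have hc : ∀ x g, (f x).coeff g = (x.coeff g : E) := fun x g =>
    MonoidAlgebra.coeff_mapRingHom _ x g
  have hf : Function.Injective f := fun x y h => by
    ext g
    rw [← hc, ← hc, h]
  have : ∀ j, ∃ x, f x = e j := fun j =>
    (MonoidAlgebra.range_map (M := H) (algebraMap L E).toAddMonoidHom).superset
      fun g => ⟨⟨_, hL ⟨(j, g), rfl⟩⟩, rfl⟩
  choose a ha using this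
  refine ⟨ι, inferInstance, a, hf (by simp only [map_sum, ha, h1, map_one]), fun j x => ?_⟩
  obtain ⟨c, h3⟩ := h2 j (f x)
  rw [← ha, ← map_mul, ← map_mul] at h3
  have h4 : ∀ g, ((a j * x * a j).coeff g : E) = c * (a j).coeff g := fun g => by
    rw [← hc, ← hc, h3]
    rfl
  by_cases h0 : ∀ g, (a j).coeff g = 0
  · exact ⟨0, by rw [show a j = 0 by ext g; simp [h0], mul_zero, smul_zero]⟩
  push Not at h0
  obtain ⟨g, hg⟩ := h0
  refine ⟨(a j * x * a j).coeff g / (a j).coeff g, ?_⟩
  ext y
  have h5 : ((a j).coeff g : E) ≠ 0 := by simpa using hg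
  rw [h4]
  change _ = (((a j * x * a j).coeff g / (a j).coeff g * (a j).coeff y : L) : E)
  push_cast
  rw [h4, mul_div_cancel_right₀ _ h5]

theorem scalar_of_rk {F H V : Type*} [Field F] [Group H] (h : Rk F H) [AddCommGroup V]
    [Module F V] [Module F[H] V] [IsScalarTower F F[H] V] [IsSimpleModule F[H] V]
    (T : V →ₗ[F[H]] V) : ∃ c : F, ∀ v, T v = c • v := by
  obtain ⟨ι, _, e, h1, h2⟩ := h
  haveI := IsSimpleModule.nontrivial F[H] V
  obtain ⟨v, hv⟩ := exists_ne (0 : V)
  obtain ⟨j, hj⟩ : ∃ j, e j • v ≠ 0 := by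
    by_contra h
    push Not at h
    exact hv (by rw [← one_smul F[H] v, ← h1, Finset.sum_smul, Finset.sum_eq_zero fun j _ => h j])
  have s := IsSimpleModule.toSpanSingleton_surjective F[H] hj
  obtain ⟨x, hx⟩ := s (T v)
  obtain ⟨c, hc⟩ := h2 j x
  refine ⟨c, fun w => ?_⟩
  obtain ⟨y, rfl⟩ := s w
  rw [LinearMap.toSpanSingleton_apply] at hx ⊢
  rw [map_smul, map_smul, ← hx, ← mul_smul (e j), ← mul_smul (e j * x), hc, ← mul_smul,
    mul_smul_comm, smul_assoc, mul_smul]

theorem prec_fin {R : Type*} [CommRing R] (I : Ideal R) [IsPrecomplete I R] (M : Type*)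
    [AddCommGroup M] [Module R M] [Module.Finite R M] : IsPrecomplete I M := by
  refine AdicCompletion.of_surjective_iff.1 fun y => ?_
  obtain ⟨t, rfl⟩ := AdicCompletion.ofTensorProduct_surjective_of_finite I M y
  induction t with
  | zero => exact ⟨0, by simp⟩
  | tmul r x =>
    obtain ⟨r, rfl⟩ := AdicCompletion.of_surjective I R r
    exact ⟨r • x, by
      rw [AdicCompletion.ofTensorProduct_tmul, map_smul]
      exact (algebraMap_smul (AdicCompletion I R) r _).symm⟩
  | add a b ha hb =>
    obtain ⟨x, hx⟩ := ha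
    obtain ⟨y, hy⟩ := hb
    exact ⟨x + y, by rw [map_add, map_add, hx, hy]⟩

theorem prec_pow {S : Type*} [CommRing S] (I : Ideal S) {n : ℕ} (hn : n ≠ 0)
    (h : IsPrecomplete (I ^ n) S) : IsPrecomplete I S := by
  refine ⟨fun f hf => ?_⟩
  obtain ⟨L, hL⟩ := h.prec (f := fun m => f (n * m)) fun {a b} hab => by
    rw [← pow_mul]
    exact hf (Nat.mul_le_mul_left n hab)
  refine ⟨L, fun m => (hf (Nat.le_mul_of_pos_left m (Nat.pos_of_ne_zero hn))).trans ?_⟩
  have := hL m
  rw [← pow_mul] at this
  exact this.mono (Submodule.pow_smul_top_le I S (Nat.le_mul_of_pos_left m (Nat.pos_of_ne_zero hn)))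

theorem local_of {S : Type*} [CommRing S] [IsDomain S] (J : Ideal S) [HenselianRing S J]
    [IsArtinianRing (S ⧸ J)] : IsLocalRing S := by
  haveI := isLocalHom_of_le_jacobson_bot J HenselianRing.jac
  refine .of_isUnit_or_isUnit_one_sub_self fun x => ?_
  obtain ⟨n, y, hy⟩ := IsArtinian.exists_pow_succ_smul_dvd (Ideal.Quotient.mk J x) (1 : S ⧸ J)
  obtain ⟨y, rfl⟩ := Ideal.Quotient.mk_surjective y
  set π := Ideal.Quotient.mk J
  simp only [smul_eq_mul, mul_one, pow_succ] at hy
  have h1 : ∀ m, π x ^ n * (π x * π y) ^ m = π x ^ n := fun m => by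
    induction m with
    | zero => simp
    | succ m ih => rw [pow_succ', ← mul_assoc, ← mul_assoc, hy, ih]
  have h2 : π ((x * y) ^ (n + 1)) * π ((x * y) ^ (n + 1)) = π ((x * y) ^ (n + 1)) := by
    simp only [map_pow, map_mul]
    linear_combination (π x * π y ^ (n + 1)) * h1 (n + 1)
  obtain ⟨a, ha, h3⟩ := HenselianRing.is_henselian (R := S) (I := J) (X ^ 2 - X) (by monicity!)
    ((x * y) ^ (n + 1)) (by
      rw [← Ideal.Quotient.eq_zero_iff_mem]
      simp only [eval_sub, eval_pow, eval_X, map_sub, sq, eval_mul, map_mul π (_ ^ _)]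
      exact sub_eq_zero.2 h2) (by
      refine IsUnit.of_mul_eq_one (2 * π ((x * y) ^ (n + 1)) - 1) ?_
      have e : ∀ t : S, eval t (derivative (X ^ 2 - X)) = 2 * t - 1 := fun t => by
        simp [one_add_one_eq_two]
      rw [e, map_sub, map_mul, map_ofNat, map_one]
      linear_combination 4 * h2)
  have h4 : π a = π ((x * y) ^ (n + 1)) := Ideal.Quotient.eq.2 h3
  have h5 : a * (a - 1) = 0 := by
    simp only [IsRoot, eval_sub, eval_pow, eval_X] at ha
    linear_combination ha
  rcases mul_eq_zero.1 h5 with rfl | h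
  · refine .inr (isUnit_of_map_unit π _ ?_)
    rw [map_sub, map_one]
    refine IsNilpotent.isUnit_one_sub ⟨n, ?_⟩
    rw [← h1 (n + 1), ← map_mul, ← map_pow π (x * y), ← h4, map_zero, mul_zero]
  · refine .inl (isUnit_of_map_unit π _ ?_)
    rw [sub_eq_zero.1 h, map_one, map_pow, map_mul] at h4
    exact IsUnit.of_mul_eq_one (π y * (π x * π y) ^ n) (by rw [h4]; ring)

/-- the integral closure of a complete discrete valuation ring in a finite extension -/
theorem ext_dvr (R K L : Type*) {k : Type*} [CommRing R] [IsDomain R] [IsDiscreteValuationRing R]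
    [IsAdicComplete (maximalIdeal R) R] [Field K] [Algebra R K] [IsFractionRing R K] [Field L]
    [Algebra K L] [Algebra R L] [IsScalarTower R K L] [FiniteDimensional K L]
    [Algebra.IsSeparable K L] [Field k] [IsAlgClosed k] (π : R →+* k)
    (hπ : Function.Surjective π) :
    ∃ _ : IsDiscreteValuationRing (integralClosure R L),
      IsAdicComplete (maximalIdeal (integralClosure R L)) (integralClosure R L) ∧
      ∃ π' : integralClosure R L →+* k, Function.Surjective π' := by
  let S := integralClosure R L
  haveI : Module.Finite R S := IsIntegralClosure.finite R K L S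
  haveI : IsDedekindDomain S := IsIntegralClosure.isDedekindDomain R K L S
  have inj : Function.Injective (algebraMap R S) := fun a b h => by
    have := congrArg (algebraMap S L) h
    rw [← IsScalarTower.algebraMap_apply, ← IsScalarTower.algebraMap_apply,
      IsScalarTower.algebraMap_apply R K L, IsScalarTower.algebraMap_apply R K L] at this
    exact IsFractionRing.injective R K ((algebraMap K L).injective this)
  haveI : FaithfulSMul R S := (faithfulSMul_iff_algebraMap_injective R S).2 inj
  haveI := prec_fin (maximalIdeal R) S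
  haveI : IsAdicComplete (maximalIdeal R) S := {}
  let J := (maximalIdeal R).map (algebraMap R S)
  haveI : IsAdicComplete J S := (IsAdicComplete.map_algebraMap_iff _ _).2 inferInstance
  haveI : IsArtinianRing (S ⧸ J) := by
    letI := Ideal.Quotient.field (maximalIdeal R)
    exact IsArtinianRing.of_finite (R ⧸ maximalIdeal R) _
  haveI := local_of J
  have nf : ¬IsField S := fun h => IsDiscreteValuationRing.not_isField R
    ((Algebra.IsIntegral.isField_iff_isField inj).2 h)
  haveI : IsDiscreteValuationRing S := ((IsDiscreteValuationRing.TFAE S nf).out 2 0).1 ‹_›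
  refine ⟨‹_›, ?_, ?_⟩
  · have h := ((IsDiscreteValuationRing.TFAE S nf).out 2 6).1 ‹_›
    obtain ⟨n, hn⟩ := h J (fun h => IsDiscreteValuationRing.not_a_field R
      ((Ideal.map_eq_bot_iff_of_injective inj).1 h))
    have h0 : n ≠ 0 := by
      rintro rfl
      have := IsAdicComplete.le_jacobson_bot J
      rw [hn, pow_zero, Ideal.one_eq_top, top_le_iff, jacobson_eq_maximalIdeal _ bot_ne_top] at this
      exact (maximalIdeal.isMaximal S).ne_top this
    haveI := prec_pow (maximalIdeal S) h0 (hn ▸ inferInstance)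
    exact {}
  · haveI := IsLocalHom.of_surjective π hπ
    letI := (ResidueField.lift π).toAlgebra
    haveI : Module.IsTorsionFree (ResidueField R) (ResidueField S) :=
      DivisionSemiring.to_moduleIsTorsionFree
    let l : ResidueField S →ₐ[ResidueField R] k := IsAlgClosed.lift
    refine ⟨l.toRingHom.comp (residue S), fun c => ?_⟩
    obtain ⟨r, rfl⟩ := hπ c
    exact ⟨algebraMap R S r, l.commutes (residue R r)⟩

/-- **splitting `p`-modular systems exist**, for any finite family of finite groups -/
theorem exists_system (p : ℕ) [Fact p.Prime] (k : Type u) [Field k] [IsAlgClosed k] [CharP k p]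
    {ι : Type*} [Finite ι] (H : ι → Type*) [∀ i, Group (H i)] [∀ i, Finite (H i)] :
    ∃ (O K : Type u) (_ : CommRing O) (_ : IsDomain O) (_ : IsDiscreteValuationRing O)
      (_ : IsAdicComplete (maximalIdeal O) O) (_ : Field K) (_ : CharZero K) (_ : Algebra O K)
      (_ : IsFractionRing O K) (π : O →+* k), Function.Surjective π ∧ ∀ i, Rk K (H i) := by
  let R := WittVector p k
  have hm : maximalIdeal R = Ideal.span {(p : R)} := (WittVector.irreducible p).maximalIdeal_eq
  haveI : IsAdicComplete (maximalIdeal R) R := hm ▸ inferInstance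
  haveI : CharZero R := by
    obtain ⟨q, hq⟩ := CharP.exists R
    rcases CharP.char_is_prime_or_zero R q with h | rfl
    · haveI := CharP.of_ringHom_of_ne_zero (WittVector.constantCoeff (p := p) (R := k)) q h.ne_zero
      obtain rfl := CharP.eq k ‹CharP k q› ‹CharP k p›
      exact absurd (CharP.cast_eq_zero R q) (WittVector.irreducible q).ne_zero
    · exact CharP.charP_to_charZero R
  let K := FractionRing R
  let E := AlgebraicClosure K
  choose s h1 h2 using fun i => rk_desc K (rk_closed E (H i))
  let L := IntermediateField.adjoin K (⋃ i, s i)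
  haveI := (Set.finite_iUnion h1).to_subtype
  haveI : FiniteDimensional K L :=
    IntermediateField.finiteDimensional_adjoin fun x _ => Algebra.IsIntegral.isIntegral x
  obtain ⟨_, _, π, hπ⟩ := ext_dvr R K L WittVector.constantCoeff
    (WittVector.constantCoeff_surjective p)
  exact ⟨integralClosure R L, L, inferInstance, inferInstance, ‹_›, ‹_›, inferInstance,
    inferInstance, inferInstance, integralClosure.isFractionRing_of_finite_extension K L, π, hπ,
    fun i => h2 i L ((Set.subset_iUnion s i).trans (IntermediateField.subset_adjoin _ _))⟩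

/-- irreducible representations have only scalar endomorphisms -/
theorem scalar_rep {F H V : Type*} [Field F] [Group H] (h : Rk F H) [AddCommGroup V] [Module F V]
    (ρ : Representation F H V) [ρ.IsIrreducible] (T : ρ.IntertwiningMap ρ) :
    ∃ c : F, ∀ v, T v = c • v :=
  scalar_of_rk h (V := ρ.asModule) (Representation.IntertwiningMap.equivLinearMapAsModule ρ ρ T)

end Vale.Agent.P179M21
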