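import Vale.Agent.P179S50.Defs
import Vale.Agent.P179M21.Ex

/-!
# P179: existence of splitting modular systems, in the form of `P179S.IsSystem`
-/

set_option linter.all false

namespace Vale.Agent.P179M21

universe u

theorem splits_of_rk {K H : Type*} [Field K] [Group H] (h : Rk K H) : P179S.Splits K H := by
  intro a f hf
  haveI := a.2
  obtain ⟨c, hc⟩ := scalar_rep h a.1.2 ⟨f, hf⟩
  exact ⟨c, LinearMap.ext hc⟩

/-- splitting modular systems exist -/
theorem exists_isSystem (p : ℕ) [Fact p.Prime] (k : Type u) [Field k] [IsAlgClosed k] [CharP k p]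
    (G : Type*) [Group G] [Finite G] :
    ∃ (O K : Type u) (_ : CommRing O) (_ : IsDomain O) (_ : Field K) (_ : Algebra O K)
      (π : O →+* k), P179S.IsSystem π K G := by
  obtain ⟨O, K, _, _, h1, h2, _, h3, _, h4, π, h5, h6⟩ :=
    exists_system p k fun H : Subgroup G => H
  exact ⟨O, K, _, ‹_›, _, _, π, h1, h5, by rwa [IsLocalRing.ker_eq_maximalIdeal π h5], h4, h3,
    fun H => splits_of_rk (h6 H)⟩

end Vale.Agent.P179M21
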